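import Mathlib

/-!
# AUC and AMUC norms
-/

namespace MidTree

section defs

variable {X : Type*} [NormedAddCommGroup X] [NormedSpace ℝ X]

/-- `F` is a closed subspace of finite codimension of `X`. -/
def IsCof (F : Submodule ℝ X) : Prop :=
  IsClosed (F : Set X) ∧ FiniteDimensional ℝ (X ⧸ F)

/-- `N` is an equivalent norm on `X`. -/
def IsEquivalentNorm (N : Seminorm ℝ X) : Prop :=
  ∃ a b : ℝ, 0 < a ∧ 0 < b ∧ ∀ x : X, a * ‖x‖ ≤ N x ∧ N x ≤ b * ‖x‖

/-- The modulus of asymptotic uniform convexity of `N`: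
the infimum over `N x = 1` of the supremum over closed finite-codimensional `F` of the infimum
over `y ∈ F`, `N y = 1` of `N (x + t y) - 1`. -/
noncomputable def aucModulus (N : Seminorm ℝ X) (t : ℝ) : EReal :=
  ⨅ (x : X) (_ : N x = 1), ⨆ (F : Submodule ℝ X) (_ : IsCof F),
    ⨅ (y : X) (_ : y ∈ F ∧ N y = 1), ((N (x + t • y) - 1 : ℝ) : EReal)

/-- The modulus of asymptotic midpoint uniform convexity of `N`:
the infimum over `N x = 1` of the supremum over closed finite-codimensional `F` of the infimum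
over `y ∈ F`, `N y = 1` of `max (N (x + t y)) (N (x - t y)) - 1`. -/
noncomputable def amucModulus (N : Seminorm ℝ X) (t : ℝ) : EReal :=
  ⨅ (x : X) (_ : N x = 1), ⨆ (F : Submodule ℝ X) (_ : IsCof F),
    ⨅ (y : X) (_ : y ∈ F ∧ N y = 1), ((max (N (x + t • y)) (N (x - t • y)) - 1 : ℝ) : EReal)

/-- `N` is asymptotically uniformly convex. -/
def IsAUC (N : Seminorm ℝ X) : Prop := ∀ t : ℝ, 0 < t → 0 < aucModulus N t

/-- `N` is asymptotically midpoint uniformly convex. -/
def IsAMUC (N : Seminorm ℝ X) : Prop := ∀ t : ℝ, 0 < t → 0 < amucModulus N t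

end defs

/-- `X` is reflexive: the canonical map into the bidual is onto. -/
def IsReflexive (X : Type*) [NormedAddCommGroup X] [NormedSpace ℝ X] : Prop :=
  Function.Surjective (NormedSpace.inclusionInDoubleDual ℝ X)

end MidTree
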